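import Mathlib
import Vale.Agent.Helper6.EditL1

namespace Vale.Agent.Results.P238.SmallCubeBounds

open Vale.Agent.Helper6.EditL1

/-- the words of the hypermetric configuration in `{0,1}^3` -/
def w3 : Fin 5 → List Bool :=
  ![[false, true, true], [true, false, true], [true, true, false],
    [false, true, false], [true, true, true]]

/-- the words of the hypermetric configuration in `{0,1}^4` -/
def w4 : Fin 5 → List Bool :=
  ![[false, true, false, true], [true, false, false, false], [true, true, true, false],
    [true, false, true, false], [true, true, false, false]]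

/-- the weights of the two pentagonal configurations -/
def c5 : Fin 5 → ℤ := ![1, 1, 1, -1, -1]

/-- the words of the hypermetric configuration in `{0,1}^5` -/
def w5 : Fin 7 → List Bool :=
  ![[false, true, false, true, true], [false, true, true, false, true],
    [true, false, false, true, false], [true, false, true, false, false],
    [false, true, false, false, true], [true, false, true, true, false],
    [true, true, false, true, false]]

/-- the words of the hypermetric configuration in `{0,1}^6` -/
def w6 : Fin 7 → List Bool :=
  ![[false, false, true, false, true, true], [false, true, false, false, true, false],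
    [true, false, true, true, false, true], [true, true, false, true, false, false],
    [false, true, true, false, true, false], [true, false, false, true, false, true],
    [true, false, true, false, false, true]]

/-- the weights of the two seven-point configurations -/
def c7 : Fin 7 → ℤ := ![1, 1, 1, 1, -1, -1, -1]

lemma sum_c5 : ∑ i, c5 i = 1 := by decide
lemma sum_c7 : ∑ i, c7 i = 1 := by decide

lemma pos3 : posSum c5 w3 = 16 := by decide
lemma neg3 : negSum c5 w3 = 14 := by decide
lemma pos4 : posSum c5 w4 = 20 := by decide
lemma neg4 : negSum c5 w4 = 16 := by decide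
lemma pos5 : posSum c7 w5 = 48 := by decide
lemma neg5 : negSum c7 w5 = 38 := by decide
lemma pos6 : posSum c7 w6 = 54 := by decide
lemma neg6 : negSum c7 w6 = 42 := by decide

lemma len3 : ∀ i, (w3 i).length = 3 := by decide
lemma len4 : ∀ i, (w4 i).length = 4 := by decide
lemma len5 : ∀ i, (w5 i).length = 5 := by decide
lemma len6 : ∀ i, (w6 i).length = 6 := by decide

/-- the bound obtained from a hypermetric configuration of words of length `k`, for words of
any length `n ≥ k` (the words are padded by a common block of zeros in front) -/
lemma bound_padded {ι : Type*} [Fintype ι] (c : ι → ℤ) (hc : ∑ i, c i = 1)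
    (s : ι → List Bool) (k : ℕ) (hs : ∀ i, (s i).length = k) (n : ℕ) (hkn : k ≤ n)
    (f : List Bool → lp (fun _ : ℕ => ℝ) 1) (a b : ℝ)
    (hf : ∀ x y : List Bool, x.length = n → y.length = n →
      a * (ed x y : ℝ) ≤ ‖f x - f y‖ ∧ ‖f x - f y‖ ≤ b * (ed x y : ℝ)) :
    a * (posSum c s : ℝ) ≤ b * (negSum c s : ℝ) := by
  refine bound_of_config c hc s (List.replicate (n - k) false) f a b (fun i j => ?_)
  apply hf
  · rw [List.length_append, List.length_replicate, hs i]
    omega
  · rw [List.length_append, List.length_replicate, hs j]
    omega

/-- Let `f` map the binary words of length `n` into `ℓ¹` so that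
`a * ED(x,y) ≤ ‖f x - f y‖ ≤ b * ED(x,y)` for all words `x`, `y` of length `n`. Then
`b ≥ (8/7) a` if `n ≥ 3`, `b ≥ (5/4) a` if `n ≥ 4`, `b ≥ (24/19) a` if `n ≥ 5` and
`b ≥ (9/7) a` if `n ≥ 6`. -/
theorem result (n : ℕ) (f : List Bool → lp (fun _ : ℕ => ℝ) 1) (a b : ℝ)
    (hf : ∀ x y : List Bool, x.length = n → y.length = n →
      a * (ed x y : ℝ) ≤ ‖f x - f y‖ ∧ ‖f x - f y‖ ≤ b * (ed x y : ℝ)) :
    (3 ≤ n → 8 / 7 * a ≤ b) ∧ (4 ≤ n → 5 / 4 * a ≤ b) ∧ (5 ≤ n → 24 / 19 * a ≤ b) ∧
      (6 ≤ n → 9 / 7 * a ≤ b) := by
  refine ⟨fun h => ?_, fun h => ?_, fun h => ?_, fun h => ?_⟩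
  · have := bound_padded c5 sum_c5 w3 3 len3 n h f a b hf
    rw [pos3, neg3] at this
    push_cast at this
    linarith
  · have := bound_padded c5 sum_c5 w4 4 len4 n h f a b hf
    rw [pos4, neg4] at this
    push_cast at this
    linarith
  · have := bound_padded c7 sum_c7 w5 5 len5 n h f a b hf
    rw [pos5, neg5] at this
    push_cast at this
    linarith
  · have := bound_padded c7 sum_c7 w6 6 len6 n h f a b hf
    rw [pos6, neg6] at this
    push_cast at this
    linarith

end Vale.Agent.Results.P238.SmallCubeBounds
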