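import Mathlib
import Vale.Agent.Helper6.EditL1
import Vale.Agent.Helper6.CutEmbed
import Vale.Agent.Results.P238.SmallCubeBounds

namespace Vale.Agent.Results.P238.ExactSmallCubes

open Vale.Agent.Helper6.EditL1 Vale.Agent.Helper6.CutEmbed

/-- weighted cuts (mask over the eight words of length three, weight) giving an optimal map of
`{0,1}^3` into `ℓ¹`; common denominator `7` -/
def cuts3 : List (ℕ × ℕ) :=
  [(51, 5), (85, 5), (47, 1), (11, 1), (55, 1), (19, 1), (117, 1), (15, 5), (77, 1), (81, 1)]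

/-- weighted cuts (mask over the sixteen words of length four, weight) giving an optimal map of
`{0,1}^4` into `ℓ¹`; common denominator `136` -/
def cuts4 : List (ℕ × ℕ) :=
  [(15, 7), (136, 6), (179, 5), (207, 10), (255, 89), (395, 5), (783, 13), (1331, 6), (2815, 6),
    (2831, 14), (3246, 3), (3325, 1), (3711, 4), (3855, 51), (3887, 15), (3891, 2), (3903, 7),
    (4371, 4), (4883, 14), (4891, 7), (7007, 6), (12079, 8), (12082, 3), (12287, 10), (12531, 11),
    (12850, 1), (12979, 13), (13058, 5), (13067, 4), (13107, 50), (14135, 26), (16179, 8),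
    (17669, 5), (19532, 1), (19630, 1), (19692, 3), (19708, 2), (19709, 5), (20301, 4),
    (20737, 19), (21765, 2), (21845, 86), (23825, 6), (24405, 5), (29520, 7), (30069, 11),
    (30325, 2), (30581, 6), (32597, 5)]

lemma check3 : ∀ a b c a' b' c' : Bool,
    7 * ed [a, b, c] [a', b', c'] ≤ cutDist cuts3 [a, b, c] [a', b', c'] ∧
    7 * cutDist cuts3 [a, b, c] [a', b', c'] ≤ 8 * (7 * ed [a, b, c] [a', b', c']) := by
  decide

set_option maxRecDepth 100000 in
lemma check4 : ∀ a b c d a' b' c' d' : Bool,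
    136 * ed [a, b, c, d] [a', b', c', d'] ≤ cutDist cuts4 [a, b, c, d] [a', b', c', d'] ∧
    4 * cutDist cuts4 [a, b, c, d] [a', b', c', d'] ≤
      5 * (136 * ed [a, b, c, d] [a', b', c', d']) := by
  decide

lemma exists3 : ∀ x y : List Bool, x.length = 3 → y.length = 3 →
    (ed x y : ℝ) ≤ ‖embed cuts3 7 x - embed cuts3 7 y‖ ∧
      ‖embed cuts3 7 x - embed cuts3 7 y‖ ≤ 8 / 7 * (ed x y : ℝ) := by
  intro x y hx hy
  obtain ⟨a, b, c, rfl⟩ := List.length_eq_three.mp hx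
  obtain ⟨a', b', c', rfl⟩ := List.length_eq_three.mp hy
  obtain ⟨h1, h2⟩ := check3 a b c a' b' c'
  rw [norm_embed_sub]
  have h1' : (7 : ℝ) * (ed [a, b, c] [a', b', c'] : ℝ)
      ≤ (cutDist cuts3 [a, b, c] [a', b', c'] : ℝ) := by exact_mod_cast h1
  have h2' : (7 : ℝ) * (cutDist cuts3 [a, b, c] [a', b', c'] : ℝ)
      ≤ 8 * (7 * (ed [a, b, c] [a', b', c'] : ℝ)) := by exact_mod_cast h2
  push_cast
  constructor
  · rw [le_div_iff₀ (by norm_num)]
    linarith
  · rw [div_le_iff₀ (by norm_num)]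
    linarith

lemma length_eq_four {x : List Bool} (hx : x.length = 4) : ∃ a b c d, x = [a, b, c, d] := by
  rcases x with _ | ⟨a, _ | ⟨b, _ | ⟨c, _ | ⟨d, _ | ⟨e, l⟩⟩⟩⟩⟩ <;> simp at hx
  exact ⟨a, b, c, d, rfl⟩

lemma exists4 : ∀ x y : List Bool, x.length = 4 → y.length = 4 →
    (ed x y : ℝ) ≤ ‖embed cuts4 136 x - embed cuts4 136 y‖ ∧
      ‖embed cuts4 136 x - embed cuts4 136 y‖ ≤ 5 / 4 * (ed x y : ℝ) := by
  intro x y hx hy
  obtain ⟨a, b, c, d, rfl⟩ := length_eq_four hx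
  obtain ⟨a', b', c', d', rfl⟩ := length_eq_four hy
  obtain ⟨h1, h2⟩ := check4 a b c d a' b' c' d'
  rw [norm_embed_sub]
  have h1' : (136 : ℝ) * (ed [a, b, c, d] [a', b', c', d'] : ℝ)
      ≤ (cutDist cuts4 [a, b, c, d] [a', b', c', d'] : ℝ) := by exact_mod_cast h1
  have h2' : (4 : ℝ) * (cutDist cuts4 [a, b, c, d] [a', b', c', d'] : ℝ)
      ≤ 5 * (136 * (ed [a, b, c, d] [a', b', c', d'] : ℝ)) := by exact_mod_cast h2
  push_cast
  constructor
  · rw [le_div_iff₀ (by norm_num)]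
    linarith
  · rw [div_le_iff₀ (by norm_num)]
    linarith

/-- `f` maps the binary words of length `n` into `ℓ¹` with
`a * ED(x,y) ≤ ‖f x - f y‖ ≤ b * ED(x,y)` for all words `x`, `y` of length `n`. -/
def BiLip (n : ℕ) (f : List Bool → lp (fun _ : ℕ => ℝ) 1) (a b : ℝ) : Prop :=
  ∀ x y : List Bool, x.length = n → y.length = n →
    a * (ed x y : ℝ) ≤ ‖f x - f y‖ ∧ ‖f x - f y‖ ≤ b * (ed x y : ℝ)

/-- `c` is the least distortion of a map of `({0,1}^n, ED)` into `ℓ¹`, and it is attained: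
some map has constants `a = 1`, `b = c`, and every map with constants `a`, `b` has
`b ≥ c * a`. -/
def IsLeastDistortion (n : ℕ) (c : ℝ) : Prop :=
  (∃ f : List Bool → lp (fun _ : ℕ => ℝ) 1, BiLip n f 1 c) ∧
    ∀ (f : List Bool → lp (fun _ : ℕ => ℝ) 1) (a b : ℝ), BiLip n f a b → c * a ≤ b

/-- The least distortion of a map of `({0,1}^n, ED)` into `ℓ¹` is exactly `8/7` for `n = 3` and
exactly `5/4` for `n = 4`. -/
theorem result : IsLeastDistortion 3 (8 / 7) ∧ IsLeastDistortion 4 (5 / 4) :=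
  ⟨⟨⟨embed cuts3 7, fun x y hx hy => by simpa using exists3 x y hx hy⟩,
      fun f a b hf => (Vale.Agent.Results.P238.SmallCubeBounds.result 3 f a b hf).1 le_rfl⟩,
    ⟨⟨embed cuts4 136, fun x y hx hy => by simpa using exists4 x y hx hy⟩,
      fun f a b hf => (Vale.Agent.Results.P238.SmallCubeBounds.result 4 f a b hf).2.1 le_rfl⟩⟩

end Vale.Agent.Results.P238.ExactSmallCubes
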