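import Mathlib
import Vale.Agent.Helper6.P238Plain

/-!
P238 (`ℓ¹` distortion of edit distance), plain form of `P238.SmallCubeBounds`: the same
theorem with no definitions of ours in the statement.

The edit distance is characterised inside the statement instead of being defined: there is
exactly one function `E` on pairs of binary words (lists of Booleans) satisfying the three
equations of the standard recursion for the edit (Levenshtein) distance with unit-cost
insertions, deletions and substitutions,
`E [] y = |y|`, `E x [] = |x|`,
`E (s :: x) (t :: y) = min (E x (t :: y) + 1, E (s :: x) y + 1, E x y + [s ≠ t])`,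
and for this `E`:

if `f` maps binary words to absolutely summable real sequences so that
`a * E x y ≤ ∑ i, |f x i - f y i| ≤ b * E x y` for all words `x`, `y` of length `n`, then
`b ≥ (8/7) a` if `n ≥ 3`, `b ≥ (5/4) a` if `n ≥ 4`, `b ≥ (24/19) a` if `n ≥ 5` and
`b ≥ (9/7) a` if `n ≥ 6`.
-/

namespace Vale.Agent.Results.P238.SmallCubeBoundsPlain

theorem result :
    ∃ E : List Bool → List Bool → ℕ,
      ((∀ y : List Bool, E [] y = y.length) ∧
        (∀ x : List Bool, E x [] = x.length) ∧
        (∀ (s t : Bool) (x y : List Bool),
          E (s :: x) (t :: y) =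
            min (min (E x (t :: y) + 1) (E (s :: x) y + 1))
              (E x y + if s = t then 0 else 1))) ∧
      (∀ E' : List Bool → List Bool → ℕ,
        ((∀ y : List Bool, E' [] y = y.length) ∧
          (∀ x : List Bool, E' x [] = x.length) ∧
          (∀ (s t : Bool) (x y : List Bool),
            E' (s :: x) (t :: y) =
              min (min (E' x (t :: y) + 1) (E' (s :: x) y + 1))
                (E' x y + if s = t then 0 else 1))) →
        E' = E) ∧
      ∀ (n : ℕ) (f : List Bool → ℕ → ℝ) (a b : ℝ),
        (∀ x : List Bool, Summable (fun i : ℕ => |f x i|)) →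
        (∀ x y : List Bool, x.length = n → y.length = n →
          a * (E x y : ℝ) ≤ ∑' i : ℕ, |f x i - f y i| ∧
            ∑' i : ℕ, |f x i - f y i| ≤ b * (E x y : ℝ)) →
        (3 ≤ n → 8 / 7 * a ≤ b) ∧ (4 ≤ n → 5 / 4 * a ≤ b) ∧ (5 ≤ n → 24 / 19 * a ≤ b) ∧
          (6 ≤ n → 9 / 7 * a ≤ b) :=
  Vale.Agent.Helper6.P238Plain.plain

end Vale.Agent.Results.P238.SmallCubeBoundsPlain
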